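import Vale.Agent.P226.OneDim

namespace Vale.Agent.Results.P226.UniformBound

open MeasureTheory Set Filter ProbabilityTheory Vale.Agent.P226

lemma N_nonneg (s : ℝ) : 0 ≤ N s := integral_nonneg fun _ => le_max_right _ _

lemma c0_le' : c0 ≤ 0.39895 := by
  have h1 := c0_sq
  have h2 := Real.pi_gt_d4
  have h3 : 1 / (2 * Real.pi) ≤ 0.39895 ^ 2 := by
    rw [div_le_iff₀ (by positivity)]
    nlinarith
  rw [← h1] at h3
  exact abs_le_of_sq_le_sq' h3 (by norm_num) |>.2

lemma key_small {s : ℝ} (h0 : 0 ≤ s) (h1 : s ≤ 1) : 4 * s * N s ≤ 0.405 := by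
  have h2 := N_upper h0
  have hc := c0_le'
  have hc0 := c0_pos
  have hB0 : 0 ≤ 1 + s ^ 2 / 2 - s ^ 4 / 24 + s ^ 6 / 240 := by
    have h3 : s ^ 4 ≤ 1 := pow_le_one₀ h0 h1
    have h4 : 0 ≤ s ^ 6 := pow_nonneg h0 6
    nlinarith [sq_nonneg s]
  have h4 : N s ≤ 0.39895 * (1 + s ^ 2 / 2 - s ^ 4 / 24 + s ^ 6 / 240) - s / 2 := by
    have h6 := mul_le_mul_of_nonneg_right hc hB0
    linarith
  have h7 : 4 * s * N s ≤ 4 * s * (0.39895 * (1 + s ^ 2 / 2 - s ^ 4 / 24 + s ^ 6 / 240) - s / 2) :=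
    mul_le_mul_of_nonneg_left h4 (by linarith)
  refine h7.trans ?_
  have hid : (0.405 : ℝ) - 4 * s * (0.39895 * (1 + s ^ 2 / 2 - s ^ 4 / 24 + s ^ 6 / 240) - s / 2) =
      (s - (153/250)) ^ 2 * ((211115314027161853/195312500000000000 : ℝ) * s ^ 0 + (-(227453646172033/312500000000000) : ℝ) * s ^ 1 + (117639511539/1562500000000 : ℝ) * s ^ 2 + (4426533767/75000000000 : ℝ) * s ^ 3 + (-(406929/50000000) : ℝ) * s ^ 4 + (-(7979/1200000) : ℝ) * s ^ 5) +
      (-(14959549171343479/97656250000000000000) : ℝ) * (s - (153/250)) + (1409729353120813959/24414062500000000000000 : ℝ) := by ring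
  have hq : (0.3 : ℝ) ≤ (211115314027161853/195312500000000000 : ℝ) * s ^ 0 + (-(227453646172033/312500000000000) : ℝ) * s ^ 1 + (117639511539/1562500000000 : ℝ) * s ^ 2 + (4426533767/75000000000 : ℝ) * s ^ 3 + (-(406929/50000000) : ℝ) * s ^ 4 + (-(7979/1200000) : ℝ) * s ^ 5 := by
    have h8 : 0 ≤ s ^ 3 := pow_nonneg h0 3
    have h9 : s ^ 4 ≤ 1 := pow_le_one₀ h0 h1
    have h10 : s ^ 5 ≤ 1 := pow_le_one₀ h0 h1
    have h11 : 0 ≤ s ^ 4 := pow_nonneg h0 4
    have h12 : 0 ≤ s ^ 5 := pow_nonneg h0 5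
    nlinarith [sq_nonneg s]
  have h9 := mul_le_mul_of_nonneg_left hq (sq_nonneg (s - (153/250)))
  nlinarith [sq_nonneg (s - (153/250))]

lemma exp_half : Real.exp (-1 ^ 2 / 2) ≤ 0.6066 := by
  have h1 := Real.exp_one_gt_d9
  have h2 : Real.exp (-1 ^ 2 / 2) ^ 2 * Real.exp 1 = 1 := by
    rw [← Real.exp_nat_mul, ← Real.exp_add]
    norm_num
  have h3 := Real.exp_pos (-1 ^ 2 / 2)
  by_contra hcon
  push Not at hcon
  have h4 : 0.6066 ^ 2 < Real.exp (-1 ^ 2 / 2) ^ 2 := by nlinarith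
  nlinarith

lemma exp_lower3 {x : ℝ} (hx : 0 ≤ x) : 1 - x + x ^ 2 / 2 - x ^ 3 / 6 ≤ Real.exp (-x) := by
  have h := mono_of_deriv
    (f := fun y => Real.exp (-y) - (-1 * y ^ 1 + 1 / 2 * y ^ 2 + (-1 / 6) * y ^ 3))
    (fun y => ((hasDerivAt_neg y).exp).sub (poly_deriv (-1) (1 / 2) (-1 / 6) 1 2 3 y)) (by
      intro y hy
      have := exp_upper hy
      simp
      nlinarith) hx
  simp at h
  nlinarith

lemma phi_lower3 (y : ℝ) : c0 * (1 - y ^ 2 / 2 + y ^ 4 / 8 - y ^ 6 / 48) ≤ phi y := by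
  unfold phi
  have h := exp_lower3 (x := y ^ 2 / 2) (by positivity)
  have h2 : -y ^ 2 / 2 = -(y ^ 2 / 2) := by ring
  rw [h2]
  refine le_trans (le_of_eq ?_) (mul_le_mul_of_nonneg_left h c0_pos.le)
  ring

lemma Psi_lower3 {s : ℝ} (hs : 0 ≤ s) :
    c0 * (s - s ^ 3 / 6 + s ^ 5 / 40 - s ^ 7 / 336) ≤ Psi s := by
  have h := mono_of_deriv
    (f := fun y => Psi y - ((c0 * y ^ 1 + (-c0 / 6) * y ^ 3 + c0 / 40 * y ^ 5) +
      ((-c0 / 336) * y ^ 7 + 0 * y ^ 8 + 0 * y ^ 9)))
    (fun y => (Psi_hasDerivAt y).sub ((poly_deriv c0 (-c0 / 6) (c0 / 40) 1 3 5 y).add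
      (poly_deriv (-c0 / 336) 0 0 7 8 9 y))) (by
      intro y _
      have := phi_lower3 y
      simp
      nlinarith) hs
  simp [Psi_zero] at h
  nlinarith

lemma key_large {s : ℝ} (h1 : 1 ≤ s) : 4 * s * N s ≤ 0.405 := by
  have h2 : 4 * s * N s = ∫ y, 4 * s * max (y - s) 0 ∂(gaussianReal 0 1) := by
    unfold N
    rw [integral_const_mul]
  have hint : Integrable (fun y : ℝ => y ^ 2) (gaussianReal 0 1) := by
    have := (memLp_id_gaussianReal (μ := 0) (v := 1) 2).integrable_sq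
    exact this
  have h3 : ∫ y, 4 * s * max (y - s) 0 ∂(gaussianReal 0 1)
      ≤ ∫ y, (Ioi (1 : ℝ)).indicator (fun y => y ^ 2) y ∂(gaussianReal 0 1) := by
    apply integral_mono_of_nonneg
    · exact Eventually.of_forall fun y => mul_nonneg (by linarith) (le_max_right _ _)
    · exact hint.indicator measurableSet_Ioi
    · apply Eventually.of_forall
      intro y
      simp only [indicator, mem_Ioi]
      split_ifs with hy
      · rcases le_total (y - s) 0 with h | h
        · rw [max_eq_right h]; nlinarith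
        · rw [max_eq_left h]; nlinarith [sq_nonneg (y - 2 * s)]
      · rw [max_eq_right (by linarith)]; simp
  have h4 : ∫ y, (Ioi (1 : ℝ)).indicator (fun y => y ^ 2) y ∂(gaussianReal 0 1)
      = phi 1 + 1 / 2 - Psi 1 := by
    rw [integral_gaussianReal_eq_integral_smul (by norm_num), ← sq_tail,
      ← integral_indicator measurableSet_Ioi]
    congr 1
    funext y
    simp only [phi_eq, smul_eq_mul, indicator]
    split_ifs
    · ring
    · ring
  rw [h2]
  refine h3.trans ?_
  rw [h4]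
  have h5 := Psi_lower3 (s := 1) (by norm_num)
  have h6 := exp_half
  have h7 := c0_ge
  have h8 : phi 1 ≤ c0 * 0.6066 := mul_le_mul_of_nonneg_left h6 c0_pos.le
  norm_num at h5
  linarith

lemma key {s : ℝ} (h0 : 0 < s) : 4 * s * N s ≤ 0.405 := by
  rcases le_total s 1 with h | h
  · exact key_small h0.le h
  · exact key_large h

variable {d : ℕ}

lemma marginal (v : EuclideanSpace ℝ (Fin d)) (hv : ‖v‖ = 1) :
    (stdGaussian (EuclideanSpace ℝ (Fin d))).map (innerSL ℝ v) = gaussianReal 0 1 := by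
  rw [IsGaussian.map_eq_gaussianReal, integral_strongDual_stdGaussian, variance_dual_stdGaussian,
    innerSL_apply_norm, hv]
  simp

lemma cell {A : Set (EuclideanSpace ℝ (Fin d))} (hA : MeasurableSet A) {s : ℝ} (hs : 0 < s) :
    ‖∫ x in A, x ∂(stdGaussian (EuclideanSpace ℝ (Fin d)))‖
      ≤ N s + s * (stdGaussian (EuclideanSpace ℝ (Fin d))).real A := by
  set γ := stdGaussian (EuclideanSpace ℝ (Fin d)) with hγ
  set z := ∫ x in A, x ∂γ with hz
  by_cases hz0 : z = 0
  · rw [hz0, norm_zero]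
    have := N_nonneg s
    positivity
  · have hzn : ‖z‖ ≠ 0 := norm_ne_zero_iff.2 hz0
    set v := ‖z‖⁻¹ • z with hv
    have hv1 : ‖v‖ = 1 := by
      rw [hv, norm_smul, norm_inv, norm_norm, inv_mul_cancel₀ hzn]
    have hvz : innerSL ℝ v z = ‖z‖ := by
      rw [innerSL_apply_apply, hv, real_inner_smul_left, real_inner_self_eq_norm_sq]
      field_simp
    have hid : Integrable (fun x => x) γ := IsGaussian.integrable_id
    have hL : Integrable (fun x => innerSL ℝ v x) γ := (innerSL ℝ v).integrable_comp hid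
    have hmax : Integrable (fun x => max (innerSL ℝ v x - s) 0) γ :=
      (hL.sub (integrable_const s)).pos_part
    rw [← hvz, hz, ← ContinuousLinearMap.integral_comp_comm _ hid.integrableOn]
    have h1 : ∫ x in A, innerSL ℝ v x ∂γ ≤ ∫ x in A, (max (innerSL ℝ v x - s) 0 + s) ∂γ := by
      apply integral_mono hL.integrableOn
      · exact (hmax.add (integrable_const s)).integrableOn
      · intro x
        have := le_max_left (innerSL ℝ v x - s) 0
        simp only
        linarith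
    have h2 : ∫ x in A, (max (innerSL ℝ v x - s) 0 + s) ∂γ
        = ∫ x in A, max (innerSL ℝ v x - s) 0 ∂γ + s * γ.real A := by
      rw [integral_add hmax.integrableOn (integrable_const s).integrableOn, setIntegral_const,
        smul_eq_mul, mul_comm]
    have h3 : ∫ x in A, max (innerSL ℝ v x - s) 0 ∂γ ≤ ∫ x, max (innerSL ℝ v x - s) 0 ∂γ :=
      setIntegral_le_integral hmax (Eventually.of_forall fun x => le_max_right _ _)
    have h4 : ∫ x, max (innerSL ℝ v x - s) 0 ∂γ = N s := by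
      unfold N
      rw [← marginal v hv1, integral_map (innerSL ℝ v).continuous.aemeasurable]
      exact (by fun_prop : Continuous fun y : ℝ => max (y - s) 0).aestronglyMeasurable
    linarith

/-- For disjoint measurable cells of `ℝ^d`, any `d` and any number of cells, the squared Gaussian
first moments add up to at most `0.405`. -/
theorem result (d k : ℕ) (A : Fin k → Set (EuclideanSpace ℝ (Fin d)))
    (hA : ∀ i, MeasurableSet (A i)) (hdisj : Pairwise fun i j => Disjoint (A i) (A j)) :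
    ∑ i, ‖∫ x in A i, x ∂(stdGaussian (EuclideanSpace ℝ (Fin d)))‖ ^ 2 ≤ 0.405 := by
  set γ := stdGaussian (EuclideanSpace ℝ (Fin d)) with hγ
  have hcell : ∀ i, ‖∫ x in A i, x ∂γ‖ ^ 2 ≤ 0.405 * γ.real (A i) := by
    intro i
    set r := ‖∫ x in A i, x ∂γ‖ with hr
    have hr0 : 0 ≤ r := norm_nonneg _
    rcases eq_or_lt_of_le hr0 with h | h
    · rw [← h]
      have : 0 ≤ γ.real (A i) := measureReal_nonneg
      nlinarith
    · have hs : 0 < 0.405 / (2 * r) := by positivity
      have h1 := cell (hA i) hs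
      have h2 := key hs
      have h3 : N (0.405 / (2 * r)) ≤ r / 2 := by
        have h4 : 4 * (0.405 / (2 * r)) * N (0.405 / (2 * r)) = 0.405 * (2 / r * N (0.405 / (2 * r))) := by
          field_simp
          ring
        rw [h4] at h2
        have h5 : 2 / r * N (0.405 / (2 * r)) ≤ 1 := by linarith
        rw [div_mul_eq_mul_div, div_le_one h] at h5
        linarith
      have h6 : r ≤ r / 2 + 0.405 / (2 * r) * γ.real (A i) := by
        have h7 : r ≤ N (0.405 / (2 * r)) + 0.405 / (2 * r) * γ.real (A i) := h1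
        linarith
      have h8 : 0.405 / (2 * r) * γ.real (A i) = 0.405 * γ.real (A i) / (2 * r) := by ring
      rw [h8] at h6
      have h9 : r / 2 ≤ 0.405 * γ.real (A i) / (2 * r) := by linarith
      rw [div_le_div_iff₀ (by norm_num) (by positivity)] at h9
      nlinarith
  have hsum : ∑ i, γ.real (A i) ≤ 1 := by
    rw [← measureReal_iUnion_fintype hdisj hA]
    exact measureReal_le_one
  calc ∑ i, ‖∫ x in A i, x ∂γ‖ ^ 2 ≤ ∑ i, 0.405 * γ.real (A i) := Finset.sum_le_sum fun i _ => hcell i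
    _ = 0.405 * ∑ i, γ.real (A i) := by rw [Finset.mul_sum]
    _ ≤ 0.405 := by nlinarith

end Vale.Agent.Results.P226.UniformBound
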